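import Vale.Agent.P112.F30.Defs

/-!
# P112 / (F) / (FC) : weighted counts and classes (helper314)

`stFC : F30.StFC`. The tops carry a slow exponential weight (no cut-off), the count of the tops above `(z, j)` is monotone
in `j` (convexity of the classes), and two bases above a common pair of the same class have a common top.
-/

open MeasureTheory Set
open scoped ENNReal

set_option linter.dupNamespace false
set_option linter.unusedSectionVars false
set_option linter.unusedVariables false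

namespace Vale.Agent.P112.FW

open T F30

variable {κ : Type} [Fintype κ] {M : Tops κ} {u : ℝ × ℝ → ℝ} {S ε D : ℝ}

theorem tw_pos (M : Tops κ) (ε : ℝ) (m : κ) (z : ℝ × ℝ) : 0 < M.w ε m z := Real.exp_pos _

/-- The top `m` is active for the pair `(z, j)`. -/
def Act (M : Tops κ) (u : ℝ × ℝ → ℝ) (S : ℝ) (z : ℝ × ℝ) (j : ℕ) (m : κ) : Prop :=
  M.j m ≤ j ∧ |u z - M.s m| ≤ S * 2 ^ j

theorem Act.mono (hS : 0 ≤ S) {z : ℝ × ℝ} {j k : ℕ} (h : j ≤ k) {m : κ} (hm : Act M u S z j m) :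
    Act M u S z k m :=
  ⟨hm.1.trans h, hm.2.trans (mul_le_mul_of_nonneg_left (pow_le_pow_right₀ (by norm_num) h) hS)⟩

open Classical in
theorem B_eq (z : ℝ × ℝ) (j : ℕ) : M.B u S ε z j = ∑ m, if Act M u S z j m then M.w ε m z else 0 := by
  unfold Tops.B Act
  refine Finset.sum_congr rfl fun m _ => ?_
  congr

theorem B_mono (hS : 0 ≤ S) {z : ℝ × ℝ} {j k : ℕ} (h : j ≤ k) : M.B u S ε z j ≤ M.B u S ε z k := by
  classical
  rw [B_eq, B_eq]
  refine Finset.sum_le_sum fun m _ => ?_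
  by_cases h1 : Act M u S z j m
  · rw [if_pos h1, if_pos (h1.mono hS h)]
  · rw [if_neg h1]
    split_ifs
    · exact (tw_pos M ε m z).le
    · exact le_rfl

theorem B_le_Nw (z : ℝ × ℝ) (j : ℕ) : M.B u S ε z j ≤ M.Nw ε z := by
  classical
  rw [B_eq]
  unfold Tops.Nw
  refine Finset.sum_le_sum fun m _ => ?_
  split_ifs
  · exact le_rfl
  · exact (tw_pos M ε m z).le

/-- The pair `(U, a)` is above the pair `(z, k)`. -/
structure Abo (u : ℝ × ℝ → ℝ) (S D : ℝ) (U : ℝ × ℝ) (a : ℕ) (z : ℝ × ℝ) (k : ℕ) : Prop where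
  lev : a + 1 ≤ k
  slope : |u z - u U| ≤ S / 2 * 2 ^ k
  x : |z.1 - U.1| ≤ 2 / 2 ^ a
  y : |z.2 - ln u U z.1| ≤ D

theorem Abo.act (hS : 0 ≤ S) {U z : ℝ × ℝ} {a k : ℕ} (h : Abo u S D U a z k) {m : κ}
    (hm : Act M u S U a m) : Act M u S z k m := by
  obtain ⟨h2, h3⟩ := hm
  refine ⟨h2.trans (by have := h.lev; omega), ?_⟩
  have e : u z - M.s m = (u z - u U) + (u U - M.s m) := by ring
  have h4 : (2 : ℝ) ^ a * 2 ≤ 2 ^ k := by
    rw [← pow_succ]
    exact pow_le_pow_right₀ (by norm_num) h.lev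
  have h5 : S * 2 ^ a ≤ S / 2 * 2 ^ k := by nlinarith
  calc |u z - M.s m| ≤ |u z - u U| + |u U - M.s m| := by rw [e]; exact abs_add_le _ _
    _ ≤ S / 2 * 2 ^ k + S * 2 ^ a := add_le_add h.slope h3
    _ ≤ S / 2 * 2 ^ k + S / 2 * 2 ^ k := by linarith
    _ = S * 2 ^ k := by ring

/-- The distance of `z` from the top `m`. -/
noncomputable def tex (M : Tops κ) (m : κ) (z : ℝ × ℝ) : ℝ :=
  2 ^ M.j m * |z.1 - M.x m| + |z.2 - M.line m z.1|

theorem tw_eq (M : Tops κ) (ε : ℝ) (m : κ) (z : ℝ × ℝ) : M.w ε m z = Real.exp (-(ε * tex M m z)) := rfl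

theorem Abo.ex_le (hS : 0 ≤ S) {U z : ℝ × ℝ} {a k : ℕ} (h : Abo u S D U a z k) {m : κ}
    (hm : Act M u S U a m) : tex M m z ≤ tex M m U + (2 + D + 2 * S) := by
  obtain ⟨h2, h3⟩ := hm
  have hpa : (0 : ℝ) < 2 ^ a := by positivity
  have hpi : (0 : ℝ) < 2 ^ M.j m := by positivity
  have hia : (2 : ℝ) ^ M.j m ≤ 2 ^ a := pow_le_pow_right₀ (by norm_num) h2
  have hx := h.x
  have hxa : 2 ^ a * |z.1 - U.1| ≤ 2 := by
    rw [le_div_iff₀ hpa] at hx
    linarith
  have h6 : 2 ^ M.j m * |z.1 - M.x m| ≤ 2 ^ M.j m * |U.1 - M.x m| + 2 := by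
    have e : z.1 - M.x m = (z.1 - U.1) + (U.1 - M.x m) := by ring
    have h7 : |z.1 - M.x m| ≤ |z.1 - U.1| + |U.1 - M.x m| := by rw [e]; exact abs_add_le _ _
    have h8 : 2 ^ M.j m * |z.1 - U.1| ≤ 2 ^ a * |z.1 - U.1| :=
      mul_le_mul_of_nonneg_right hia (abs_nonneg _)
    nlinarith
  have h9 : |z.2 - M.line m z.1| ≤ |U.2 - M.line m U.1| + D + 2 * S := by
    have e : z.2 - M.line m z.1 = (U.2 - M.line m U.1) + (z.2 - ln u U z.1) +
        (u U - M.s m) * (z.1 - U.1) := by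
      unfold Tops.line ln
      ring
    rw [e]
    have h10 : |(u U - M.s m) * (z.1 - U.1)| ≤ 2 * S := by
      rw [abs_mul]
      calc |u U - M.s m| * |z.1 - U.1| ≤ (S * 2 ^ a) * |z.1 - U.1| :=
            mul_le_mul_of_nonneg_right h3 (abs_nonneg _)
        _ = S * (2 ^ a * |z.1 - U.1|) := by ring
        _ ≤ S * 2 := mul_le_mul_of_nonneg_left hxa hS
        _ = 2 * S := by ring
    have h11 := abs_add_three (U.2 - M.line m U.1) (z.2 - ln u U z.1) ((u U - M.s m) * (z.1 - U.1))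
    have h12 := h.y
    linarith
  unfold tex
  linarith

theorem Abo.w_ge (hS : 0 ≤ S) (hε : 0 ≤ ε) (hD : ε * (2 + D + 2 * S) ≤ 1 / 4) {U z : ℝ × ℝ} {a k : ℕ}
    (h : Abo u S D U a z k) {m : κ} (hm : Act M u S U a m) : 3 / 4 * M.w ε m U ≤ M.w ε m z := by
  have h1 := h.ex_le hS hm
  have h2 : -(ε * tex M m U) + -(1 / 4) ≤ -(ε * tex M m z) := by
    have := mul_le_mul_of_nonneg_left h1 hε
    linarith
  rw [tw_eq, tw_eq]
  calc 3 / 4 * Real.exp (-(ε * tex M m U)) ≤ Real.exp (-(1 / 4)) * Real.exp (-(ε * tex M m U)) := by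
        refine mul_le_mul_of_nonneg_right ?_ (Real.exp_pos _).le
        have := Real.add_one_le_exp (-(1 / 4 : ℝ))
        linarith
    _ = Real.exp (-(ε * tex M m U) + -(1 / 4)) := by rw [← Real.exp_add]; ring_nf
    _ ≤ Real.exp (-(ε * tex M m z)) := Real.exp_le_exp.2 h2

/-- **Common top lemma.** -/
theorem common (hS : 0 ≤ S) (hε : 0 ≤ ε) (hD : ε * (2 + D + 2 * S) ≤ 1 / 4) {t : ℝ} {z U V : ℝ × ℝ}
    {k a b : ℕ} (hU : Abo u S D U a z k) (hV : Abo u S D V b z k) (htU : t ≤ M.B u S ε U a)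
    (htV : t ≤ M.B u S ε V b) (htz : M.B u S ε z k < 3 / 2 * t) :
    ∃ m, Act M u S U a m ∧ Act M u S V b m := by
  classical
  by_contra hcon
  push Not at hcon
  have key : 3 / 4 * M.B u S ε U a + 3 / 4 * M.B u S ε V b ≤ M.B u S ε z k := by
    rw [B_eq U, B_eq V, B_eq z, Finset.mul_sum, Finset.mul_sum, ← Finset.sum_add_distrib]
    refine Finset.sum_le_sum fun m _ => ?_
    by_cases h1 : Act M u S U a m
    · rw [if_pos h1, if_neg (hcon m h1), if_pos (hU.act hS h1)]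
      have := hU.w_ge hS hε hD h1
      linarith
    · rw [if_neg h1]
      by_cases h2 : Act M u S V b m
      · rw [if_pos h2, if_pos (hV.act hS h2)]
        have := hV.w_ge hS hε hD h2
        linarith
      · rw [if_neg h2]
        split_ifs
        · have := (tw_pos M ε m z).le
          linarith
        · linarith
  linarith

theorem tw_cont (M : Tops κ) (ε : ℝ) (m : κ) : Continuous (M.w ε m) := by
  unfold Tops.w Tops.line
  fun_prop

theorem tw_meas (M : Tops κ) (ε : ℝ) (m : κ) : Measurable (M.w ε m) := (tw_cont M ε m).measurable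

theorem Nw_meas (M : Tops κ) (ε : ℝ) : Measurable (M.Nw ε) := by
  unfold Tops.Nw
  exact Finset.measurable_sum _ fun m _ => tw_meas M ε m

theorem B_meas (hu : Measurable u) (j : ℕ) : Measurable fun z => M.B u S ε z j := by
  classical
  simp_rw [B_eq]
  refine Finset.measurable_sum _ fun m _ => ?_
  refine Measurable.ite ?_ (tw_meas M ε m) measurable_const
  have : {z | Act M u S z j m} = {z | M.j m ≤ j} ∩ {z | |u z - M.s m| ≤ S * 2 ^ j} := rfl
  rw [this]
  refine (MeasurableSet.const _).inter ?_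
  exact measurableSet_le (by fun_prop) measurable_const

theorem psys_cls (hu : Measurable u) (hS : 0 ≤ S) {n : ℕ} {P : ℕ → Set (ℝ × ℝ)} (hP : PSys n P) (r : ℤ) :
    PSys n (M.cls u S ε P r) where
  meas j := by
    refine (hP.meas j).inter ?_
    exact (measurableSet_le measurable_const (B_meas hu j)).inter
      (measurableSet_lt (B_meas hu j) measurable_const)
  bdd := by
    obtain ⟨r', hr⟩ := hP.bdd
    exact ⟨r', fun j z hz => hr j z hz.1⟩
  lt j hj := by
    ext z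
    simp only [mem_empty_iff_false, iff_false]
    intro hz
    have := hz.1
    rw [hP.lt j hj] at this
    exact this
  conv z i j k hij hjk hi hk :=
    ⟨hP.conv z i j k hij hjk hi.1 hk.1, hi.2.1.trans (B_mono hS hij), (B_mono hS hjk).trans_lt hk.2.2⟩

theorem ct_cls (hS : 0 ≤ S) (hε : 0 ≤ ε) (hD : ε * (2 + D + 2 * S) ≤ 1 / 4) {P : ℕ → Set (ℝ × ℝ)} (r : ℤ) :
    CT u (M.cls u S ε P r) S D := by
  intro j jU jU' z U U' hz hU hU' h1 h2 h3 h4 h5 h6 h7 h8
  have aU : Abo u S D U jU z j := ⟨h1, h3, h5, h7⟩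
  have aU' : Abo u S D U' jU' z j := ⟨h2, h4, h6, h8⟩
  have hlt : M.B u S ε z j < 3 / 2 * (3 / 2 : ℝ) ^ r := by
    have := hz.2.2
    rw [zpow_add_one₀ (by norm_num)] at this
    linarith
  obtain ⟨m, hm, hm'⟩ := common hS hε hD aU aU' hU.2.1 hU'.2.1 hlt
  have e1 : (2 : ℝ) ^ jU ≤ 2 ^ max jU jU' := pow_le_pow_right₀ (by norm_num) (le_max_left _ _)
  have e2 : (2 : ℝ) ^ jU' ≤ 2 ^ max jU jU' := pow_le_pow_right₀ (by norm_num) (le_max_right _ _)
  have e : u U - u U' = (u U - M.s m) + (M.s m - u U') := by ring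
  have h10 : |u U - u U'| ≤ |u U - M.s m| + |M.s m - u U'| := by rw [e]; exact abs_add_le _ _
  have h11 := hm.2
  have h12 := hm'.2
  rw [abs_sub_comm (u U')] at h12
  have h13 := mul_le_mul_of_nonneg_left e1 hS
  have h14 := mul_le_mul_of_nonneg_left e2 hS
  linarith

theorem cover_cls (hε : 0 < ε) {P : ℕ → Set (ℝ × ℝ)} {j : ℕ} {z : ℝ × ℝ} (hz : z ∈ P j) {m : κ}
    (h1 : M.j m ≤ j) (h2 : |u z - M.s m| ≤ S * 2 ^ j)
    (h3 : ε * (2 ^ M.j m * |z.1 - M.x m| + |z.2 - M.line m z.1|) ≤ 1 / 4) :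
    ∃ r : ℤ, -1 ≤ r ∧ z ∈ M.cls u S ε P r j := by
  classical
  have hw : 3 / 4 ≤ M.w ε m z := by
    unfold Tops.w
    have h4 := Real.add_one_le_exp (-(ε * (2 ^ M.j m * |z.1 - M.x m| + |z.2 - M.line m z.1|)))
    linarith
  have hB : 3 / 4 ≤ M.B u S ε z j := by
    refine hw.trans ?_
    rw [B_eq]
    have hact : Act M u S z j m := ⟨h1, h2⟩
    calc M.w ε m z = if Act M u S z j m then M.w ε m z else 0 := by rw [if_pos hact]
      _ ≤ ∑ m, if Act M u S z j m then M.w ε m z else 0 := by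
        refine Finset.single_le_sum (f := fun m => if Act M u S z j m then M.w ε m z else 0)
          (fun m _ => ?_) (Finset.mem_univ m)
        show 0 ≤ if Act M u S z j m then M.w ε m z else 0
        split_ifs
        · exact (tw_pos M ε m z).le
        · exact le_rfl
  obtain ⟨r, hr1, hr2⟩ := exists_mem_Ico_zpow (x := M.B u S ε z j) (y := (3 / 2 : ℝ)) (by linarith)
    (by norm_num)
  refine ⟨r, ?_, hz, hr1, hr2⟩
  by_contra hcon
  push Not at hcon
  have h5 : (3 / 2 : ℝ) ^ (r + 1) ≤ (3 / 2 : ℝ) ^ (-1 : ℤ) := zpow_le_zpow_right₀ (by norm_num) (by omega)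
  rw [zpow_neg_one] at h5
  norm_num at h5
  linarith

/-! ### The integral of the weights -/

theorem lint_exp_abs {a : ℝ} (ha : 0 < a) :
    ∫⁻ y : ℝ, ENNReal.ofReal (Real.exp (-(a * |y|))) = ENNReal.ofReal (2 / a) := by
  have e1 : ∫⁻ y in Iic (0 : ℝ), ENNReal.ofReal (Real.exp (-(a * |y|))) = ENNReal.ofReal (1 / a) := by
    have h1 : ∫⁻ y in Iic (0 : ℝ), ENNReal.ofReal (Real.exp (-(a * |y|))) =
        ∫⁻ y in Iic (0 : ℝ), ENNReal.ofReal (Real.exp (a * y)) := by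
      refine setLIntegral_congr_fun measurableSet_Iic fun y hy => ?_
      have : |y| = -y := abs_of_nonpos hy
      show ENNReal.ofReal (Real.exp (-(a * |y|))) = ENNReal.ofReal (Real.exp (a * y))
      rw [this]
      ring_nf
    rw [h1, ← ofReal_integral_eq_lintegral_ofReal (integrableOn_exp_mul_Iic ha 0)
      (Filter.Eventually.of_forall fun _ => (Real.exp_pos _).le), integral_exp_mul_Iic ha]
    simp
  have e2 : ∫⁻ y in Ioi (0 : ℝ), ENNReal.ofReal (Real.exp (-(a * |y|))) = ENNReal.ofReal (1 / a) := by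
    have h1 : ∫⁻ y in Ioi (0 : ℝ), ENNReal.ofReal (Real.exp (-(a * |y|))) =
        ∫⁻ y in Ioi (0 : ℝ), ENNReal.ofReal (Real.exp (-a * y)) := by
      refine setLIntegral_congr_fun measurableSet_Ioi fun y hy => ?_
      have : |y| = y := abs_of_pos hy
      show ENNReal.ofReal (Real.exp (-(a * |y|))) = ENNReal.ofReal (Real.exp (-a * y))
      rw [this]
      ring_nf
    rw [h1, ← ofReal_integral_eq_lintegral_ofReal (integrableOn_exp_mul_Ioi (by linarith) 0)
      (Filter.Eventually.of_forall fun _ => (Real.exp_pos _).le), integral_exp_mul_Ioi (by linarith)]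
    simp
  rw [← lintegral_add_compl _ (measurableSet_Iic (a := (0 : ℝ))), compl_Iic, e1, e2,
    ← ENNReal.ofReal_add (by positivity) (by positivity)]
  congr 1
  ring

theorem lint_exp_abs_sub {a : ℝ} (ha : 0 < a) (c : ℝ) :
    ∫⁻ y : ℝ, ENNReal.ofReal (Real.exp (-(a * |y - c|))) = ENNReal.ofReal (2 / a) := by
  rw [← lint_exp_abs ha]
  exact lintegral_sub_right_eq_self (fun y => ENNReal.ofReal (Real.exp (-(a * |y|)))) c

theorem lint_w (hε : 0 < ε) (M : Tops κ) (m : κ) :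
    ∫⁻ z, ENNReal.ofReal (M.w ε m z) = ENNReal.ofReal (4 / ε ^ 2 * (1 / 2) ^ M.j m) := by
  rw [Measure.volume_eq_prod, lintegral_prod _ (tw_meas M ε m).ennreal_ofReal.aemeasurable]
  have h1 : ∀ x : ℝ, ∫⁻ y : ℝ, ENNReal.ofReal (M.w ε m (x, y)) =
      ENNReal.ofReal (Real.exp (-(ε * 2 ^ M.j m * |x - M.x m|))) * ENNReal.ofReal (2 / ε) := by
    intro x
    have e : ∀ y : ℝ, ENNReal.ofReal (M.w ε m (x, y)) =
        ENNReal.ofReal (Real.exp (-(ε * 2 ^ M.j m * |x - M.x m|))) *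
          ENNReal.ofReal (Real.exp (-(ε * |y - M.line m x|))) := by
      intro y
      rw [← ENNReal.ofReal_mul (Real.exp_pos _).le, ← Real.exp_add]
      unfold Tops.w
      congr 2
      ring
    simp_rw [e]
    rw [lintegral_const_mul' _ _ ENNReal.ofReal_ne_top, lint_exp_abs_sub hε]
  simp_rw [h1]
  rw [lintegral_mul_const' _ _ ENNReal.ofReal_ne_top, lint_exp_abs_sub (by positivity),
    ← ENNReal.ofReal_mul (by positivity)]
  congr 1
  have hp : (2 : ℝ) ^ M.j m ≠ 0 := by positivity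
  rw [one_div_pow]
  field_simp
  norm_num

theorem lint_Nw (hε : 0 < ε) (M : Tops κ) :
    ∫⁻ z, ENNReal.ofReal (M.Nw ε z) = ENNReal.ofReal (4 / ε ^ 2 * ∑ m, (1 / 2) ^ M.j m) := by
  unfold Tops.Nw
  have e : ∀ z, ENNReal.ofReal (∑ m, M.w ε m z) = ∑ m, ENNReal.ofReal (M.w ε m z) := fun z =>
    ENNReal.ofReal_sum_of_nonneg fun m _ => (tw_pos M ε m z).le
  simp_rw [e]
  rw [lintegral_finsetSum _ fun m _ => (tw_meas M ε m).ennreal_ofReal]
  simp_rw [lint_w hε M]
  rw [← ENNReal.ofReal_sum_of_nonneg fun m _ => by positivity, Finset.mul_sum]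

/-- **(FC)** -/
theorem stFC : StFC := by
  intro κ _ M u hu n P S D ε hε hS hD hP hsm
  exact ⟨fun r => psys_cls hu.meas hS hP r, fun r => ct_cls hS hε.le hsm r,
    fun j z hz m h1 h2 h3 => cover_cls hε hz h1 h2 h3,
    fun r j z hz => hz.2.1.trans (B_le_Nw z j), Nw_meas M ε, (lint_Nw hε M).le⟩

end Vale.Agent.P112.FW
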