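import Vale.Agent.P112.F30.Defs
import Vale.Agent.P112.T.Cor
import Vale.Agent.P112.T.Final

/-!
# P112 / (F) : the bound of one class from its forests (helper314)

A convex system `P` with the forests of `F30.Forests` is `rest + forests`, `rest` has at most `l + L` scales per point.
-/

open MeasureTheory Set Filter
open scoped ENNReal

set_option linter.dupNamespace false
set_option linter.unusedSectionVars false

namespace Vale.Agent.P112.FW

open T F30

variable {u : ℝ × ℝ → ℝ} {n : ℕ} {P : ℕ → Set (ℝ × ℝ)} {S H Q : ℝ} {l L K : ℕ} {ι : Fin K → Type}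
  [∀ k, Fintype (ι k)] {τ w : Fin K → ℝ} {top : ∀ k, ι k → ℝ × ℝ} {lev : ∀ k, ι k → ℕ}
  {E : ∀ k, ι k → ℕ → Set (ℝ × ℝ)}

/-- The pairs of `P` in no tree. -/
def rest (P : ℕ → Set (ℝ × ℝ)) (E : ∀ k, ι k → ℕ → Set (ℝ × ℝ)) (j : ℕ) : Set (ℝ × ℝ) :=
  {z | z ∈ P j ∧ ∀ k i, z ∉ E k i j}

theorem rest_meas (hP : PSys n P) (hE : ∀ k i j, MeasurableSet (E k i j)) (j : ℕ) :
    MeasurableSet (rest P E j) := by
  have : rest P E j = P j \ ⋃ k, ⋃ i, E k i j := by
    ext z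
    simp [rest]
  rw [this]
  exact (hP.meas j).diff (MeasurableSet.iUnion fun k => MeasurableSet.iUnion fun i => hE k i j)

/-- At most `l + L` scales per point. -/
theorem rest_cnt (hP : PSys n P) (hF : Forests u n P S H Q l L K ι τ w top lev E) {j : ℕ} {z : ℝ × ℝ}
    (hz : z ∈ rest P E j) : cnt (rest P E) j z < l + L + 1 := by
  classical
  have hex : ∃ i, z ∈ P i := ⟨j, hz.1⟩
  set a := Nat.find hex with ha
  have haP : z ∈ P a := Nat.find_spec hex
  have hsub : ((Finset.range j).filter fun i => z ∈ rest P E i) ⊆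
      Finset.Ico a (a + l) ∪ Finset.Ico (j + 1 - L) j := by
    intro i hi
    rw [Finset.mem_filter, Finset.mem_range] at hi
    obtain ⟨hij, hzi⟩ := hi
    have hai : a ≤ i := Nat.find_min' hex hzi.1
    rw [Finset.mem_union, Finset.mem_Ico, Finset.mem_Ico]
    by_contra hcon
    push Not at hcon
    obtain ⟨h1, h2⟩ := hcon
    have h3 : a + l ≤ i := h1 hai
    have h4 : i + L ≤ j := by
      by_contra h5
      have : j ≤ i := h2 (by omega)
      omega
    obtain ⟨k, i', hk⟩ := hF.cover i z ⟨hzi.1, by omega,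
      hP.conv z a (i - l) i (by omega) (by omega) haP hzi.1,
      hP.conv z i (i + L) j (by omega) h4 hzi.1 hz.1⟩
    exact hzi.2 k i' hk
  have h1 : cnt (rest P E) j z ≤ l + L := by
    unfold cnt
    refine (Finset.card_le_card hsub).trans ((Finset.card_union_le _ _).trans ?_)
    rw [Nat.card_Ico, Nat.card_Ico]
    omega
  omega

/-- The decomposition of the functions. -/
theorem ind_dec (hF : Forests u n P S H Q l L K ι τ w top lev E) (g : ℝ × ℝ → ℝ) (j : ℕ) (z : ℝ × ℝ) :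
    (P j).indicator g z = (rest P E j).indicator g z + ∑ k, ∑ i, (E k i j).indicator g z := by
  classical
  by_cases hz : ∃ k i, z ∈ E k i j
  · obtain ⟨k, i, hki⟩ := hz
    have h1 : z ∉ rest P E j := fun h => h.2 k i hki
    rw [indicator_of_notMem h1, zero_add, indicator_of_mem (hF.sub k i j hki)]
    rw [Finset.sum_eq_single k, Finset.sum_eq_single i]
    · rw [indicator_of_mem hki]
    · intro i' _ hne
      refine indicator_of_notMem (fun h => hne ?_) _
      exact hF.uniq_top k i' i j j z h hki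
    · simp
    · intro k' _ hne
      refine Finset.sum_eq_zero fun i' _ => indicator_of_notMem (fun h => hne ?_) _
      exact hF.uniq j z k' i' k i h hki
    · simp
  · push Not at hz
    have h0 : ∑ k, ∑ i, (E k i j).indicator g z = 0 :=
      Finset.sum_eq_zero fun k _ => Finset.sum_eq_zero fun i _ => indicator_of_notMem (hz k i) _
    rw [h0, add_zero]
    by_cases h : z ∈ P j
    · rw [indicator_of_mem h, indicator_of_mem (show z ∈ rest P E j from ⟨h, hz⟩)]
    · rw [indicator_of_notMem h, indicator_of_notMem (show z ∉ rest P E j from fun h' => h h'.1)]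

theorem S_add {M : ℕ} (κ : Ker M) {u : ℝ × ℝ → ℝ} (hu : Field u) (j : ℕ) {f g : ℝ × ℝ → ℝ} (hf : Nice f)
    (hg : Nice g) (ζ : ℝ × ℝ) : κ.S u j (fun z => f z + g z) ζ = κ.S u j f ζ + κ.S u j g ζ := by
  unfold Ker.S
  simp_rw [mul_add]
  exact integral_add (integrable_S_int κ hu j hf ζ) (integrable_S_int κ hu j hg ζ)

theorem FS_dec {M : ℕ} (κ : Ker M) (hu : Field u) (hP : PSys n P)
    (hF : Forests u n P S H Q l L K ι τ w top lev E) {g : ℝ × ℝ → ℝ} (hg : Nice g) (ζ : ℝ × ℝ) :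
    κ.FS u g P n ζ = κ.FS u g (rest P E) n ζ + ∑ k, ∑ i, κ.FS u g (E k i) n ζ := by
  have hE : ∀ k i j, MeasurableSet (E k i j) := fun k i j => (hF.forest k).meas i j
  have h1 : ∀ j, κ.S u j ((P j).indicator g) ζ = κ.S u j ((rest P E j).indicator g) ζ +
      ∑ k, ∑ i, κ.S u j ((E k i j).indicator g) ζ := by
    intro j
    have e : (P j).indicator g =
        fun z => (rest P E j).indicator g z + ∑ k, ∑ i, (E k i j).indicator g z :=
      funext fun z => ind_dec hF g j z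
    rw [e, S_add κ hu j (hg.indicator (rest_meas hP hE j))
      (Nice.sum _ fun k _ => Nice.sum _ fun i _ => hg.indicator (hE k i j))]
    congr 1
    rw [S_sum κ hu j Finset.univ (fun k _ => Nice.sum _ fun i _ => hg.indicator (hE k i j))]
    refine Finset.sum_congr rfl fun k _ => ?_
    exact S_sum κ hu j Finset.univ (fun i _ => hg.indicator (hE k i j)) ζ
  unfold Ker.FS
  simp_rw [h1]
  rw [Finset.sum_add_distrib, Finset.sum_comm]
  congr 1
  refine Finset.sum_congr rfl fun k _ => ?_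
  rw [Finset.sum_comm]

theorem Un_E_sub (hF : Forests u n P S H Q l L K ι τ w top lev E) (k : Fin K) (i : ι k) :
    Un (E k i) n ⊆ Un P n := by
  rintro z ⟨j, hj, hz⟩
  exact ⟨j, hj, hF.sub k i j hz⟩

theorem sum_int_le (hF : Forests u n P S H Q l L K ι τ w top lev E) {g : ℝ × ℝ → ℝ}
    (hg : Nice g) (hg1 : ∀ z, |g z| ≤ 1) (k : Fin K) :
    ∑ i, ∫ z in Un (E k i) n, g z ^ 2 ≤ ∫ z in Un P n, |g z| := by
  have hU : ∀ i, MeasurableSet (Un (E k i) n) := fun i => measurableSet_Un ((hF.forest k).meas i) n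
  have hdis : Pairwise (Function.onFun Disjoint fun i => Un (E k i) n) := by
    intro i i' hne
    rw [Function.onFun, Set.disjoint_left]
    rintro z ⟨j, hj, hz⟩ ⟨j', hj', hz'⟩
    exact hne (hF.uniq_top k i i' j j' z hz hz')
  rw [← integral_iUnion_fintype hU hdis fun i => hg.sq.integrable.integrableOn]
  have h1 : ∫ z in ⋃ i, Un (E k i) n, g z ^ 2 ≤ ∫ z in ⋃ i, Un (E k i) n, |g z| := by
    refine integral_mono hg.sq.integrable.integrableOn hg.abs.integrable.integrableOn fun z => ?_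
    have h2 := hg1 z
    have h3 := abs_nonneg (g z)
    show g z ^ 2 ≤ |g z|
    rw [← sq_abs]
    nlinarith
  refine h1.trans ?_
  exact setIntegral_mono_set hg.abs.integrable.integrableOn
    (Eventually.of_forall fun z => abs_nonneg _)
    (LE.le.eventuallyLE (iUnion_subset fun i => Un_E_sub hF k i))

theorem tree_dens {δ : ℝ} (hD : DensN 1 u P n 0 6 δ)
    (hF : Forests u n P S H Q l L K ι τ w top lev E) (k : Fin K) (i : ι k) :
    ∀ j1 < n, ∀ z1 ∈ E k i j1, ∀ a ≤ j1,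
      volume {z : ℝ × ℝ | z ∈ Un (E k i) n ∧ q 0 a z.1 = q 0 a z1.1 ∧
        |(z.2 - u (top k i) * z.1) - (z1.2 - u (top k i) * z1.1)| ≤ 1 ∧
          |u z - u (top k i)| ≤ 2 * 1 * 2 ^ a / 1} ≤ ENNReal.ofReal (64 * δ / 2 ^ a) := by
  intro j1 hj1 z1 hz1 a ha
  have h1 := (hF.forest k).slope i j1 hj1 z1 hz1
  have h2 := hD j1 hj1 z1 (hF.sub k i j1 hz1) 2 (by norm_num) (u (top k i))
    (z1.2 - u (top k i) * z1.1) (by
      rw [abs_sub_comm]
      have : (0 : ℝ) < 2 ^ j1 := by positivity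
      refine h1.trans ?_
      linarith) (by ring_nf; norm_num) a ha
  have e : (2 : ℝ) ^ 6 * δ / 2 ^ a = 64 * δ / 2 ^ a := by norm_num
  rw [e] at h2
  refine le_trans (measure_mono ?_) h2
  rintro z ⟨h3, h4, h5, h6⟩
  refine ⟨Un_E_sub hF k i h3, h4, ?_, ?_⟩
  · rw [show z.2 - (z1.2 - u (top k i) * z1.1) - u (top k i) * z.1 =
      (z.2 - u (top k i) * z.1) - (z1.2 - u (top k i) * z1.1) by ring]
    linarith
  · linarith

/-- **One class.** -/
theorem one_class (M : ℕ) (C0 : ℝ) (hM : 8 ≤ M) : ∃ C : ℝ, 0 < C ∧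
    ∀ (κ : Ker M), κ.Bd 1 C0 → ∀ (u : ℝ × ℝ → ℝ), Field u → ∀ (n : ℕ) (P : ℕ → Set (ℝ × ℝ))
    (S H Q δ : ℝ) (l L : ℕ), 0 < δ → 1 ≤ H → 1 ≤ Q → PSys n P → DensN 1 u P n 0 6 δ →
    ∀ (K : ℕ) (ι : Fin K → Type) [∀ k, Fintype (ι k)] (τ w : Fin K → ℝ) (top : ∀ k, ι k → ℝ × ℝ)
      (lev : ∀ k, ι k → ℕ) (E : ∀ k, ι k → ℕ → Set (ℝ × ℝ)),
      Forests u n P S H Q l L K ι τ w top lev E → ∀ X : ℝ, (∀ k, ∑ i, (1 / 2 : ℝ) ^ lev k i ≤ X) →
    ∀ g : ℝ × ℝ → ℝ, Nice g → (∀ z, |g z| ≤ 1) →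
      ∫ ζ, (κ.FS u g P n ζ) ^ 2 ≤ C * (((l + L + 1 : ℕ) : ℝ) ^ 2 * δ * (∫ z in Un P n, |g z|) +
        K ^ 2 * (δ * (∫ z in Un P n, |g z|) + (H + 3) / √Q * √X * √(∫ z in Un P n, |g z|))) := by
  obtain ⟨C3, hC3, h3⟩ := tN3m M 6 C0 hM
  obtain ⟨C2, hC2, h2⟩ := tN2 M 1 C0 le_rfl
  obtain ⟨C4, hC4, h4⟩ := tN4 M 1 C0 (by omega) le_rfl
  refine ⟨2 * (C3 + 64 * C2 + C4), by positivity, ?_⟩
  intro κ hκ u hu n P S H Q δ l L hδ hH hQ hP hD K ι _ τ w top lev E hF X hX g hg hg1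
  set I := ∫ z in Un P n, |g z| with hI
  have hI0 : 0 ≤ I := integral_nonneg fun z => abs_nonneg _
  have hE : ∀ k i j, MeasurableSet (E k i j) := fun k i j => (hF.forest k).meas i j
  have hrest : ∫ ζ, (κ.FS u g (rest P E) n ζ) ^ 2 ≤ C3 * ((l + L + 1 : ℕ) : ℝ) ^ 2 * δ * I := by
    refine (h3 1 κ hκ 0 u hu n (l + L + 1) (rest P E) (rest_meas hP hE)
      (fun j _ z hz => rest_cnt hP hF hz) δ hδ (hD.mono fun j z hz => hz.1) g hg hg1).trans ?_
    refine mul_le_mul_of_nonneg_left ?_ (by positivity)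
    refine setIntegral_mono_set hg.abs.integrable.integrableOn
      (Eventually.of_forall fun z => abs_nonneg _) (LE.le.eventuallyLE ?_)
    rintro z ⟨j, hj, hz⟩
    exact ⟨j, hj, hz.1⟩
  have hfor : ∀ k, ∫ ζ, (∑ i, κ.FS u g (E k i) n ζ) ^ 2 ≤
      64 * C2 * δ * I + C4 * ((H + 3) / √Q * √X * √I) := by
    intro k
    refine (h4 1 κ hκ (τ k) u hu n (ι k) _ _ (lev k) _ (E k) H (H + 3) Q hH (by linarith) hQ
      (hF.forest k) g hg hg1).trans ?_
    have hs := sum_int_le hF hg hg1 k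
    have hs0 : 0 ≤ ∑ i, ∫ z in Un (E k i) n, g z ^ 2 :=
      Finset.sum_nonneg fun i _ => integral_nonneg fun z => sq_nonneg _
    refine add_le_add ?_ ?_
    · calc ∑ i, ∫ ζ, (κ.FS u g (E k i) n ζ) ^ 2
          ≤ ∑ i, C2 * (64 * δ) * ∫ z in Un (E k i) n, g z ^ 2 :=
            Finset.sum_le_sum fun i _ => h2 1 κ hκ 0 u hu n (E k i) (hE k i) (u (top k i))
              ((hF.forest k).slope i) ((hF.forest k).conv i) (64 * δ) (by positivity)
              (tree_dens hD hF k i) g hg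
        _ = C2 * (64 * δ) * ∑ i, ∫ z in Un (E k i) n, g z ^ 2 := by rw [Finset.mul_sum]
        _ ≤ C2 * (64 * δ) * I := mul_le_mul_of_nonneg_left hs (by positivity)
        _ = 64 * C2 * δ * I := by ring
    · have hx1 : √(∑ i, (1 / 2 : ℝ) ^ lev k i) ≤ √X := Real.sqrt_le_sqrt (hX k)
      have hx2 : √(∑ i, ∫ z in Un (E k i) n, g z ^ 2) ≤ √I := Real.sqrt_le_sqrt hs
      calc C4 * (H + 3) / √Q * √(∑ i, (1 / 2 : ℝ) ^ lev k i) *
            √(∑ i, ∫ z in Un (E k i) n, g z ^ 2) ≤ C4 * (H + 3) / √Q * √X * √I := by gcongr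
        _ = C4 * ((H + 3) / √Q * √X * √I) := by ring
  have hNr : Nice (κ.FS u g (rest P E) n) := κ.FS_nice hu hg (rest_meas hP hE) n
  have hNk : ∀ k, Nice fun ζ => ∑ i, κ.FS u g (E k i) n ζ := fun k =>
    Nice.sum _ fun i _ => κ.FS_nice hu hg (hE k i) n
  calc ∫ ζ, (κ.FS u g P n ζ) ^ 2
      ≤ ∫ ζ, (2 * (κ.FS u g (rest P E) n ζ) ^ 2 +
          2 * (K * ∑ k, (∑ i, κ.FS u g (E k i) n ζ) ^ 2)) := by
        refine integral_mono (κ.FS_nice hu hg hP.meas n).sq.integrable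
          ((hNr.sq.const_mul 2).add (((Nice.sum _ fun k _ => (hNk k).sq).const_mul _).const_mul
            2)).integrable fun ζ => ?_
        show (κ.FS u g P n ζ) ^ 2 ≤ _
        rw [FS_dec κ hu hP hF hg ζ]
        have h5 := sq_sum_le_card_mul_sum_sq (s := (Finset.univ : Finset (Fin K)))
          (f := fun k => ∑ i, κ.FS u g (E k i) n ζ)
        simp only [Finset.card_univ, Fintype.card_fin] at h5
        have h6 := sq_nonneg (κ.FS u g (rest P E) n ζ - ∑ k, ∑ i, κ.FS u g (E k i) n ζ)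
        show _ ≤ 2 * (κ.FS u g (rest P E) n ζ) ^ 2 +
          2 * (K * ∑ k, (∑ i, κ.FS u g (E k i) n ζ) ^ 2)
        nlinarith
    _ = 2 * (∫ ζ, (κ.FS u g (rest P E) n ζ) ^ 2) +
          2 * (K * ∑ k, ∫ ζ, (∑ i, κ.FS u g (E k i) n ζ) ^ 2) := by
        rw [integral_add (hNr.sq.const_mul 2).integrable
          (((Nice.sum _ fun k _ => (hNk k).sq).const_mul _).const_mul 2).integrable,
          integral_const_mul, integral_const_mul, integral_const_mul,
          integral_finsetSum _ fun k _ => (hNk k).sq.integrable]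
    _ ≤ 2 * (C3 * ((l + L + 1 : ℕ) : ℝ) ^ 2 * δ * I) +
          2 * (K * ∑ k : Fin K, (64 * C2 * δ * I + C4 * ((H + 3) / √Q * √X * √I))) := by
        gcongr with k hk
        exact hfor k
    _ = 2 * (C3 * (((l + L + 1 : ℕ) : ℝ) ^ 2 * δ * I)) +
          2 * (K ^ 2 * (64 * C2 * (δ * I) + C4 * ((H + 3) / √Q * √X * √I))) := by
        rw [Finset.sum_const, Finset.card_univ, Fintype.card_fin, nsmul_eq_mul]
        ring
    _ ≤ 2 * ((C3 + 64 * C2 + C4) * (((l + L + 1 : ℕ) : ℝ) ^ 2 * δ * I)) +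
          2 * (K ^ 2 * ((C3 + 64 * C2 + C4) * (δ * I) +
            (C3 + 64 * C2 + C4) * ((H + 3) / √Q * √X * √I))) := by
        have hQ0 : 0 ≤ (H + 3) / √Q * √X * √I := by positivity
        gcongr <;> linarith
    _ = _ := by ring

end Vale.Agent.P112.FW
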