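import Vale.Agent.P112.T.Defs

/-!
# P112 / H314 / F : the weighted count of tops and the common top lemma (helper314)

Tops `m` (level `i`, centre `x`, line `y = c + s x`) have the weight `w ε m z`, an exponential of the distance of `z` from
the tube, without cut-off. `cnt` counts the tops which are longer than `2 ^ (-k)` and whose slope is in the window of
the pair `(z, k)`; it is monotone in `k`. In a class `t ≤ cnt < (3 / 2) t` two bases above a common pair have a common top.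
-/

open MeasureTheory Set

namespace Vale.Agent.P112.FW

open T

/-- A top: level, centre, slope, intercept. -/
structure Tp where
  i : ℕ
  x : ℝ
  s : ℝ
  c : ℝ

/-- The distance of `z` from the top (in units of its length and of the height `1`). -/
noncomputable def Tp.ex (m : Tp) (z : ℝ × ℝ) : ℝ :=
  2 ^ m.i * |z.1 - m.x| + |z.2 - m.c - m.s * z.1|

/-- The weight of the top at `z`. -/
noncomputable def Tp.w (m : Tp) (ε : ℝ) (z : ℝ × ℝ) : ℝ := Real.exp (-(ε * m.ex z))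

open Classical in
/-- The tops which are active for the pair `(z, k)`. -/
noncomputable def act (M : Finset Tp) (u : ℝ × ℝ → ℝ) (S : ℝ) (z : ℝ × ℝ) (k : ℕ) : Finset Tp :=
  M.filter fun m => m.i ≤ k ∧ |u z - m.s| ≤ S * 2 ^ k

/-- The weighted count. -/
noncomputable def cnt (M : Finset Tp) (u : ℝ × ℝ → ℝ) (S ε : ℝ) (z : ℝ × ℝ) (k : ℕ) : ℝ :=
  ∑ m ∈ act M u S z k, m.w ε z

variable {M : Finset Tp} {u : ℝ × ℝ → ℝ} {S ε : ℝ}

theorem mem_act {z : ℝ × ℝ} {k : ℕ} {m : Tp} :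
    m ∈ act M u S z k ↔ m ∈ M ∧ m.i ≤ k ∧ |u z - m.s| ≤ S * 2 ^ k := by
  classical
  unfold act
  rw [Finset.mem_filter]

theorem w_nonneg (m : Tp) (ε : ℝ) (z : ℝ × ℝ) : 0 ≤ m.w ε z := (Real.exp_pos _).le

theorem w_pos (m : Tp) (ε : ℝ) (z : ℝ × ℝ) : 0 < m.w ε z := Real.exp_pos _

theorem ex_nonneg (m : Tp) (z : ℝ × ℝ) : 0 ≤ m.ex z := by
  unfold Tp.ex
  positivity

theorem w_le_one (m : Tp) {ε : ℝ} (hε : 0 ≤ ε) (z : ℝ × ℝ) : m.w ε z ≤ 1 := by
  unfold Tp.w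
  rw [Real.exp_le_one_iff]
  have := ex_nonneg m z
  nlinarith

theorem act_mono (hS : 0 ≤ S) {z : ℝ × ℝ} {j k : ℕ} (h : j ≤ k) : act M u S z j ⊆ act M u S z k := by
  intro m hm
  rw [mem_act] at hm ⊢
  refine ⟨hm.1, hm.2.1.trans h, hm.2.2.trans ?_⟩
  exact mul_le_mul_of_nonneg_left (pow_le_pow_right₀ (by norm_num) h) hS

theorem cnt_mono (hS : 0 ≤ S) {z : ℝ × ℝ} {j k : ℕ} (h : j ≤ k) : cnt M u S ε z j ≤ cnt M u S ε z k :=
  Finset.sum_le_sum_of_subset_of_nonneg (act_mono hS h) fun m _ _ => w_nonneg m ε z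

/-- `(zU, a)` is above the pair `(z, k)`. -/
structure Abv (u : ℝ × ℝ → ℝ) (S D : ℝ) (zU : ℝ × ℝ) (a : ℕ) (z : ℝ × ℝ) (k : ℕ) : Prop where
  lev : a + 1 ≤ k
  slope : |u z - u zU| ≤ S / 2 * 2 ^ k
  x : |z.1 - zU.1| ≤ 2 / 2 ^ a
  y : |z.2 - zU.2 - u zU * (z.1 - zU.1)| ≤ D

/-- The active tops of `(zU, a)` are active for `(z, k)`, with almost the same weights. -/
theorem Abv.sub (hS : 0 ≤ S) {D : ℝ} {zU z : ℝ × ℝ} {a k : ℕ} (h : Abv u S D zU a z k) :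
    act M u S zU a ⊆ act M u S z k := by
  intro m hm
  rw [mem_act] at hm ⊢
  obtain ⟨h1, h2, h3⟩ := hm
  refine ⟨h1, h2.trans (by have := h.lev; omega), ?_⟩
  have e : u z - m.s = (u z - u zU) + (u zU - m.s) := by ring
  have h4 : (2 : ℝ) ^ a * 2 ≤ 2 ^ k := by
    rw [← pow_succ]
    exact pow_le_pow_right₀ (by norm_num) h.lev
  have h5 : S * 2 ^ a ≤ S / 2 * 2 ^ k := by nlinarith
  calc |u z - m.s| ≤ |u z - u zU| + |u zU - m.s| := by rw [e]; exact abs_add_le _ _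
    _ ≤ S / 2 * 2 ^ k + S * 2 ^ a := add_le_add h.slope h3
    _ ≤ S / 2 * 2 ^ k + S / 2 * 2 ^ k := by linarith
    _ = S * 2 ^ k := by ring

theorem Abv.ex_le (hS : 0 ≤ S) {D : ℝ} {zU z : ℝ × ℝ} {a k : ℕ} (h : Abv u S D zU a z k) {m : Tp}
    (hm : m ∈ act M u S zU a) : m.ex z ≤ m.ex zU + (2 + D + 2 * S) := by
  rw [mem_act] at hm
  obtain ⟨-, h2, h3⟩ := hm
  have hpa : (0 : ℝ) < 2 ^ a := by positivity
  have hpi : (0 : ℝ) < 2 ^ m.i := by positivity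
  have hia : (2 : ℝ) ^ m.i ≤ 2 ^ a := pow_le_pow_right₀ (by norm_num) h2
  have hx := h.x
  have hxa : 2 ^ a * |z.1 - zU.1| ≤ 2 := by
    rw [le_div_iff₀ hpa] at hx
    linarith
  have h6 : 2 ^ m.i * |z.1 - m.x| ≤ 2 ^ m.i * |zU.1 - m.x| + 2 := by
    have e : z.1 - m.x = (z.1 - zU.1) + (zU.1 - m.x) := by ring
    have h7 : |z.1 - m.x| ≤ |z.1 - zU.1| + |zU.1 - m.x| := by rw [e]; exact abs_add_le _ _
    have h8 : 2 ^ m.i * |z.1 - zU.1| ≤ 2 ^ a * |z.1 - zU.1| :=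
      mul_le_mul_of_nonneg_right hia (abs_nonneg _)
    nlinarith
  have h9 : |z.2 - m.c - m.s * z.1| ≤ |zU.2 - m.c - m.s * zU.1| + D + 2 * S := by
    have e : z.2 - m.c - m.s * z.1 = (zU.2 - m.c - m.s * zU.1) +
        (z.2 - zU.2 - u zU * (z.1 - zU.1)) + (u zU - m.s) * (z.1 - zU.1) := by ring
    rw [e]
    have h10 : |(u zU - m.s) * (z.1 - zU.1)| ≤ 2 * S := by
      rw [abs_mul]
      calc |u zU - m.s| * |z.1 - zU.1| ≤ (S * 2 ^ a) * |z.1 - zU.1| :=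
            mul_le_mul_of_nonneg_right h3 (abs_nonneg _)
        _ = S * (2 ^ a * |z.1 - zU.1|) := by ring
        _ ≤ S * 2 := mul_le_mul_of_nonneg_left hxa hS
        _ = 2 * S := by ring
    have h11 := abs_add_three (zU.2 - m.c - m.s * zU.1) (z.2 - zU.2 - u zU * (z.1 - zU.1))
      ((u zU - m.s) * (z.1 - zU.1))
    have h12 := h.y
    linarith
  unfold Tp.ex
  linarith

theorem Abv.w_ge (hS : 0 ≤ S) (hε : 0 ≤ ε) {D : ℝ} (hD : ε * (2 + D + 2 * S) ≤ 1 / 4) {zU z : ℝ × ℝ} {a k : ℕ}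
    (h : Abv u S D zU a z k) {m : Tp} (hm : m ∈ act M u S zU a) : 3 / 4 * m.w ε zU ≤ m.w ε z := by
  have h1 := h.ex_le hS hm
  have h2 : -(ε * m.ex z) ≥ -(ε * m.ex zU) + -(1 / 4) := by
    have := mul_le_mul_of_nonneg_left h1 hε
    linarith
  unfold Tp.w
  calc 3 / 4 * Real.exp (-(ε * m.ex zU)) ≤ Real.exp (-(1 / 4)) * Real.exp (-(ε * m.ex zU)) := by
        refine mul_le_mul_of_nonneg_right ?_ (Real.exp_pos _).le
        have := Real.add_one_le_exp (-(1 / 4 : ℝ))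
        linarith
    _ = Real.exp (-(ε * m.ex zU) + -(1 / 4)) := by rw [← Real.exp_add]; ring_nf
    _ ≤ Real.exp (-(ε * m.ex z)) := Real.exp_le_exp.2 h2

/-- **Common top lemma.** -/
theorem common_top (hS : 0 ≤ S) (hε : 0 ≤ ε) {D : ℝ} (hD : ε * (2 + D + 2 * S) ≤ 1 / 4) {t : ℝ} {z zU zV : ℝ × ℝ}
    {k a b : ℕ} (hU : Abv u S D zU a z k) (hV : Abv u S D zV b z k) (htU : t ≤ cnt M u S ε zU a)
    (htV : t ≤ cnt M u S ε zV b) (htz : cnt M u S ε z k < 3 / 2 * t) :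
    ∃ m ∈ M, m.i ≤ a ∧ m.i ≤ b ∧ |u zU - m.s| ≤ S * 2 ^ a ∧ |u zV - m.s| ≤ S * 2 ^ b := by
  classical
  by_contra hcon
  push Not at hcon
  have hdis : Disjoint (act M u S zU a) (act M u S zV b) := by
    rw [Finset.disjoint_left]
    intro m h1 h2
    rw [mem_act] at h1 h2
    have := hcon m h1.1 h1.2.1 h2.2.1 h1.2.2
    linarith [h2.2.2]
  have h1 : ∑ m ∈ act M u S zU a ∪ act M u S zV b, m.w ε z ≤ cnt M u S ε z k :=
    Finset.sum_le_sum_of_subset_of_nonneg (Finset.union_subset (hU.sub hS) (hV.sub hS))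
      fun m _ _ => w_nonneg m ε z
  rw [Finset.sum_union hdis] at h1
  have h2 : 3 / 4 * cnt M u S ε zU a ≤ ∑ m ∈ act M u S zU a, m.w ε z := by
    unfold cnt
    rw [Finset.mul_sum]
    exact Finset.sum_le_sum fun m hm => hU.w_ge hS hε hD hm
  have h3 : 3 / 4 * cnt M u S ε zV b ≤ ∑ m ∈ act M u S zV b, m.w ε z := by
    unfold cnt
    rw [Finset.mul_sum]
    exact Finset.sum_le_sum fun m hm => hV.w_ge hS hε hD hm
  linarith

/-- Two bases above a common pair have comparable slopes. -/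
theorem slope_close (hS : 0 ≤ S) (hε : 0 ≤ ε) {D : ℝ} (hD : ε * (2 + D + 2 * S) ≤ 1 / 4) {t : ℝ} {z zU zV : ℝ × ℝ}
    {k a b : ℕ} (hU : Abv u S D zU a z k) (hV : Abv u S D zV b z k) (htU : t ≤ cnt M u S ε zU a)
    (htV : t ≤ cnt M u S ε zV b) (htz : cnt M u S ε z k < 3 / 2 * t) (hab : a ≤ b) :
    |u zU - u zV| ≤ 2 * S * 2 ^ b := by
  obtain ⟨m, -, -, -, h1, h2⟩ := common_top hS hε hD hU hV htU htV htz
  have h3 : (2 : ℝ) ^ a ≤ 2 ^ b := pow_le_pow_right₀ (by norm_num) hab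
  have e : u zU - u zV = (u zU - m.s) + (m.s - u zV) := by ring
  rw [abs_sub_comm] at h2
  have h4 : |u zU - u zV| ≤ |u zU - m.s| + |m.s - u zV| := by rw [e]; exact abs_add_le _ _
  have h5 : S * 2 ^ a ≤ S * 2 ^ b := mul_le_mul_of_nonneg_left h3 hS
  linarith

end Vale.Agent.P112.FW
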