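import Vale.Agent.P112.H314.F.Cls
import Vale.Agent.P112.H314.F.FC
import Vale.Agent.P112.F30.FF3
import Vale.Agent.P112.H540.FD1
import Vale.Agent.P112.H724.FD2
import Vale.Agent.P112.H8.FT

/-!
# P112 / (F) : the sum over the classes; `(R0ν)` for every sub-system of a density level (helper314)
-/

open MeasureTheory Set Filter
open scoped ENNReal

set_option linter.dupNamespace false
set_option linter.unusedSectionVars false

namespace Vale.Agent.P112.FW

open T F30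

/-! ### The weights of the classes -/

/-- The weight of the class `i`. -/
noncomputable def cw (R1 i : ℕ) : ℝ := (19 / 20) ^ (i - R1)

theorem cw_pos (R1 i : ℕ) : 0 < cw R1 i := by
  unfold cw
  positivity

theorem cw_le_one (R1 i : ℕ) : cw R1 i ≤ 1 := pow_le_one₀ (by norm_num) (by norm_num)

theorem sum_cw_aux (R1 n : ℕ) :
    ∑ i ∈ Finset.range n, cw R1 i + 20 * cw R1 n ≤ (min n R1 : ℕ) + 20 := by
  induction n with
  | zero => simp [cw]
  | succ n ih =>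
    rw [Finset.sum_range_succ]
    rcases lt_or_ge n R1 with h | h
    · have e1 : cw R1 n = 1 := by
        unfold cw
        rw [Nat.sub_eq_zero_of_le h.le, pow_zero]
      have e2 : cw R1 (n + 1) = 1 := by
        unfold cw
        rw [Nat.sub_eq_zero_of_le h, pow_zero]
      rw [min_eq_left h.le] at ih
      rw [min_eq_left (Nat.succ_le_of_lt h), e2]
      rw [e1] at ih ⊢
      push_cast
      linarith
    · have e1 : cw R1 (n + 1) = cw R1 n * (19 / 20) := by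
        unfold cw
        rw [Nat.succ_sub h, pow_succ]
      rw [min_eq_right h] at ih
      rw [min_eq_right (by omega), e1]
      linarith

theorem sum_cw (R1 n : ℕ) : ∑ i ∈ Finset.range n, cw R1 i ≤ (R1 : ℝ) + 20 := by
  have h1 := sum_cw_aux R1 n
  have h2 := (cw_pos R1 n).le
  have h3 : ((min n R1 : ℕ) : ℝ) ≤ (R1 : ℝ) := by exact_mod_cast min_le_right n R1
  linarith

/-- Weighted Cauchy-Schwarz for a sum of functions. -/
theorem int_sum_sq_le {n : ℕ} {a : ℕ → ℝ × ℝ → ℝ} {c : ℕ → ℝ} {A X : ℝ} (ha : ∀ i < n, Nice (a i))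
    (hc : ∀ i, 0 < c i) (hA : 0 ≤ A) (h : ∀ i < n, ∫ ζ, a i ζ ^ 2 ≤ A * c i ^ 2)
    (hX : ∑ i ∈ Finset.range n, c i ≤ X) :
    ∫ ζ, (∑ i ∈ Finset.range n, a i ζ) ^ 2 ≤ A * X ^ 2 := by
  have hs0 : 0 ≤ ∑ i ∈ Finset.range n, c i := Finset.sum_nonneg fun i _ => (hc i).le
  calc ∫ ζ, (∑ i ∈ Finset.range n, a i ζ) ^ 2
      ≤ ∫ ζ, (∑ i ∈ Finset.range n, c i) * ∑ i ∈ Finset.range n, (1 / c i) * a i ζ ^ 2 := by
        refine integral_mono (Nice.sum _ fun i hi => ha i (Finset.mem_range.1 hi)).sq.integrable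
          ((Nice.sum _ fun i hi => (ha i (Finset.mem_range.1 hi)).sq.const_mul _).const_mul
            _).integrable fun ζ => ?_
        refine Finset.sum_sq_le_sum_mul_sum_of_sq_le_mul _ (fun i _ => (hc i).le) (fun i _ => ?_)
          fun i _ => ?_
        · have := hc i
          positivity
        · have := (hc i).ne'
          refine le_of_eq ?_
          field_simp
    _ = (∑ i ∈ Finset.range n, c i) * ∑ i ∈ Finset.range n, (1 / c i) * ∫ ζ, a i ζ ^ 2 := by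
        rw [integral_const_mul, integral_finsetSum _ fun i hi =>
          ((ha i (Finset.mem_range.1 hi)).sq.const_mul _).integrable]
        simp_rw [integral_const_mul]
    _ ≤ (∑ i ∈ Finset.range n, c i) * ∑ i ∈ Finset.range n, A * c i := by
        refine mul_le_mul_of_nonneg_left (Finset.sum_le_sum fun i hi => ?_) hs0
        have h1 := hc i
        calc 1 / c i * ∫ ζ, a i ζ ^ 2 ≤ 1 / c i * (A * c i ^ 2) :=
              mul_le_mul_of_nonneg_left (h i (Finset.mem_range.1 hi)) (by positivity)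
          _ = A * c i := by field_simp
    _ = A * (∑ i ∈ Finset.range n, c i) ^ 2 := by
        rw [← Finset.mul_sum]
        ring
    _ ≤ A * X ^ 2 := by gcongr

/-! ### The classes -/

variable {κ : Type} [Fintype κ] {Z : Tops κ} {u : ℝ × ℝ → ℝ} {S ε : ℝ} {n : ℕ}
  {P : ℕ → Set (ℝ × ℝ)}

theorem Nw_le_card (hε : 0 ≤ ε) (z : ℝ × ℝ) : Z.Nw ε z ≤ Fintype.card κ := by
  unfold Tops.Nw
  calc ∑ m, Z.w ε m z ≤ ∑ _m : κ, (1 : ℝ) := by
        refine Finset.sum_le_sum fun m _ => ?_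
        unfold Tops.w
        rw [Real.exp_le_one_iff]
        have : 0 ≤ ε * (2 ^ Z.j m * |z.1 - Z.x m| + |z.2 - Z.line m z.1|) := by positivity
        linarith
    _ = Fintype.card κ := by simp

theorem cls_unique {r r' : ℤ} {j : ℕ} {z : ℝ × ℝ} (h : z ∈ Z.cls u S ε P r j)
    (h' : z ∈ Z.cls u S ε P r' j) : r = r' := by
  have h1 : (3 / 2 : ℝ) ^ r < (3 / 2 : ℝ) ^ (r' + 1) := h.2.1.trans_lt h'.2.2
  have h2 : (3 / 2 : ℝ) ^ r' < (3 / 2 : ℝ) ^ (r + 1) := h'.2.1.trans_lt h.2.2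
  rw [zpow_lt_zpow_iff_right₀ (by norm_num)] at h1 h2
  omega

theorem cls_sub (r : ℤ) (j : ℕ) : Z.cls u S ε P r j ⊆ P j := fun _ h => h.1

/-- The decomposition into classes. -/
theorem ind_cls (hcov : ∀ j, ∀ z ∈ P j, ∃ r : ℤ, -1 ≤ r ∧ z ∈ Z.cls u S ε P r j)
    {R : ℕ} (hR : ∀ (r : ℤ) j z, z ∈ Z.cls u S ε P r j → r + 1 < R) (g : ℝ × ℝ → ℝ) (j : ℕ)
    (z : ℝ × ℝ) : (P j).indicator g z =
      ∑ i ∈ Finset.range R, (Z.cls u S ε P ((i : ℤ) - 1) j).indicator g z := by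
  by_cases hz : z ∈ P j
  · obtain ⟨r, hr, hzr⟩ := hcov j z hz
    obtain ⟨i, hi⟩ : ∃ i : ℕ, (i : ℤ) - 1 = r := ⟨(r + 1).toNat, by omega⟩
    rw [indicator_of_mem hz, Finset.sum_eq_single i]
    · rw [indicator_of_mem]
      rw [hi]
      exact hzr
    · intro i' _ hne
      refine indicator_of_notMem (fun h => hne ?_) _
      have := cls_unique h hzr
      omega
    · intro h
      exfalso
      apply h
      rw [Finset.mem_range]
      have := hR r j z hzr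
      omega
  · rw [indicator_of_notMem hz]
    symm
    exact Finset.sum_eq_zero fun i _ => indicator_of_notMem (fun h => hz h.1) _

theorem FS_cls {M : ℕ} (K : Ker M) (hu : Field u)
    (hP : ∀ r, PSys n (Z.cls u S ε P r))
    (hcov : ∀ j, ∀ z ∈ P j, ∃ r : ℤ, -1 ≤ r ∧ z ∈ Z.cls u S ε P r j)
    {R : ℕ} (hR : ∀ (r : ℤ) j z, z ∈ Z.cls u S ε P r j → r + 1 < R) {g : ℝ × ℝ → ℝ} (hg : Nice g)
    (ζ : ℝ × ℝ) : K.FS u g P n ζ =
      ∑ i ∈ Finset.range R, K.FS u g (Z.cls u S ε P ((i : ℤ) - 1)) n ζ := by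
  unfold Ker.FS
  rw [Finset.sum_comm]
  refine Finset.sum_congr rfl fun j _ => ?_
  have e : (P j).indicator g =
      fun z => ∑ i ∈ Finset.range R, (Z.cls u S ε P ((i : ℤ) - 1) j).indicator g z :=
    funext fun z => ind_cls hcov hR g j z
  rw [e, S_sum K hu j (Finset.range R) (fun i _ => hg.indicator ((hP _).meas j))]

/-! ### The measure of the points of one class -/

/-- The mass of one class. -/
theorem mass_cls {E : Set (ℝ × ℝ)} (hEf : volume E ≠ ⊤)
    (hPE : ∀ j, P j ⊆ E) (hP : ∀ r, PSys n (Z.cls u S ε P r))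
    (hNw : ∀ r j, ∀ z ∈ Z.cls u S ε P r j, (3 / 2 : ℝ) ^ r ≤ Z.Nw ε z)
    {W : ℝ} (hW : 0 ≤ W) (hint : ∫⁻ z, ENNReal.ofReal (Z.Nw ε z) ≤ ENNReal.ofReal W) {g : ℝ × ℝ → ℝ}
    (hg : Nice g) (hg1 : ∀ z, |g z| ≤ 1) (r : ℤ) :
    ∫ z in Un (Z.cls u S ε P r) n, |g z| ≤ (volume E).toReal ∧
    ∫ z in Un (Z.cls u S ε P r) n, |g z| ≤ (2 / 3 : ℝ) ^ r * W := by
  have hUE : Un (Z.cls u S ε P r) n ⊆ E := by
    rintro z ⟨j, _, hz⟩
    exact hPE j hz.1
  have hU : MeasurableSet (Un (Z.cls u S ε P r) n) := measurableSet_Un (hP r).meas n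
  have hUf : volume (Un (Z.cls u S ε P r) n) ≠ ⊤ := ne_top_of_le_ne_top hEf (measure_mono hUE)
  have h1 : ∫ z in Un (Z.cls u S ε P r) n, |g z| ≤ (volume (Un (Z.cls u S ε P r) n)).toReal := by
    calc ∫ z in Un (Z.cls u S ε P r) n, |g z| ≤ ∫ z in Un (Z.cls u S ε P r) n, (1 : ℝ) := by
          refine integral_mono hg.abs.integrable.integrableOn ?_ fun z => hg1 z
          exact integrableOn_const (hs := hUf)
      _ = (volume (Un (Z.cls u S ε P r) n)).toReal := by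
          rw [integral_const, smul_eq_mul, mul_one, measureReal_def, Measure.restrict_apply_univ]
  refine ⟨h1.trans (ENNReal.toReal_mono hEf (measure_mono hUE)), h1.trans ?_⟩
  have hp : (0 : ℝ) < (3 / 2 : ℝ) ^ r := zpow_pos (by norm_num) _
  have h2 : ENNReal.ofReal ((3 / 2 : ℝ) ^ r) * volume (Un (Z.cls u S ε P r) n) ≤
      ENNReal.ofReal W := by
    refine le_trans ?_ hint
    calc ENNReal.ofReal ((3 / 2 : ℝ) ^ r) * volume (Un (Z.cls u S ε P r) n)
        = ∫⁻ _z in Un (Z.cls u S ε P r) n, ENNReal.ofReal ((3 / 2 : ℝ) ^ r) := by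
          rw [setLIntegral_const]
      _ ≤ ∫⁻ z in Un (Z.cls u S ε P r) n, ENNReal.ofReal (Z.Nw ε z) := by
          refine setLIntegral_mono' hU fun z hz => ?_
          obtain ⟨j, _, hz⟩ := hz
          exact ENNReal.ofReal_le_ofReal (hNw r j z hz)
      _ ≤ _ := setLIntegral_le_lintegral _ _
  have h3 : (3 / 2 : ℝ) ^ r * (volume (Un (Z.cls u S ε P r) n)).toReal ≤ W := by
    have h4 := ENNReal.toReal_mono ENNReal.ofReal_ne_top h2
    rwa [ENNReal.toReal_mul, ENNReal.toReal_ofReal hp.le, ENNReal.toReal_ofReal hW] at h4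
  have h5 : (2 / 3 : ℝ) ^ r = ((3 / 2 : ℝ) ^ r)⁻¹ := by
    rw [← inv_zpow]
    norm_num
  rw [h5, inv_mul_eq_div, le_div_iff₀ hp]
  linarith

/-- The two bounds of the mass in terms of the weights. -/
theorem mass_cw {V W I : ℝ} {y i : ℕ} (hV : 0 ≤ V) (h1 : I ≤ V)
    (h2 : I ≤ (2 / 3 : ℝ) ^ ((i : ℤ) - 1) * W) (hW : W ≤ 2 ^ y * V) : I ≤ V * cw (2 * y + 1) i ^ 4 := by
  rcases le_or_gt i (2 * y + 1) with h | h
  · have e : cw (2 * y + 1) i = 1 := by
      unfold cw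
      rw [Nat.sub_eq_zero_of_le h, pow_zero]
    rw [e]
    linarith
  · obtain ⟨d, rfl⟩ : ∃ d, i = 2 * y + 1 + d := ⟨i - (2 * y + 1), by omega⟩
    have e : ((2 * y + 1 + d : ℕ) : ℤ) - 1 = ((2 * y + d : ℕ) : ℤ) := by
      push_cast
      ring
    rw [e, zpow_natCast] at h2
    have e2 : cw (2 * y + 1) (2 * y + 1 + d) = (19 / 20) ^ d := by
      unfold cw
      congr 1
      omega
    rw [e2]
    have h3 : (2 / 3 : ℝ) ^ (2 * y + d) * 2 ^ y ≤ ((19 / 20 : ℝ) ^ d) ^ 4 := by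
      have h4 : (2 / 3 : ℝ) ^ (2 * y + d) * 2 ^ y = (8 / 9 : ℝ) ^ y * (2 / 3 : ℝ) ^ d := by
        rw [pow_add, pow_mul, show (8 / 9 : ℝ) = (2 / 3) ^ 2 * 2 by norm_num, mul_pow]
        ring
      have h5 : ((19 / 20 : ℝ) ^ d) ^ 4 = ((19 / 20 : ℝ) ^ 4) ^ d := by
        rw [← pow_mul, ← pow_mul, mul_comm]
      rw [h4, h5]
      calc (8 / 9 : ℝ) ^ y * (2 / 3 : ℝ) ^ d ≤ 1 * ((19 / 20 : ℝ) ^ 4) ^ d := by
            gcongr
            · exact pow_le_one₀ (by norm_num) (by norm_num)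
            · norm_num
        _ = _ := one_mul _
    calc I ≤ (2 / 3 : ℝ) ^ (2 * y + d) * W := h2
      _ ≤ (2 / 3 : ℝ) ^ (2 * y + d) * (2 ^ y * V) := by gcongr
      _ = ((2 / 3 : ℝ) ^ (2 * y + d) * 2 ^ y) * V := by ring
      _ ≤ ((19 / 20 : ℝ) ^ d) ^ 4 * V := by gcongr
      _ = V * ((19 / 20 : ℝ) ^ d) ^ 4 := by ring

end Vale.Agent.P112.FW
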